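import Mathlib

/-!
Newman's theorem: every tiling of `ℤ` by a finite set `K` is periodic, with a period
that divides `(2 ^ D)!` where `D` bounds the diameter of `K`.
-/

namespace Vale.Agent.Lib.P043

open Finset

section Newman

variable {A : Set ℤ} {K : Finset ℤ}

/-- an element is in `A` iff it is not excluded by the earlier elements (anchor `m = min K`),
and similarly with the later elements (anchor `M = max K`). -/
theorem mem_iff_anchor (h : ∀ n : ℤ, ∃! k, k ∈ K ∧ n - k ∈ A) {m : ℤ} (hm : m ∈ K) (z : ℤ) :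
    z ∈ A ↔ ∀ a ∈ A, z + m - a ∈ K → a = z := by
  constructor
  · intro hz a ha hk
    obtain ⟨k, -, hu⟩ := h (z + m)
    have e1 : m = k := hu m ⟨hm, by simpa using hz⟩
    have e2 : z + m - a = k := hu (z + m - a) ⟨hk, by simpa using ha⟩
    omega
  · intro hall
    obtain ⟨k, ⟨hk, hka⟩, -⟩ := h (z + m)
    have := hall (z + m - k) hka (by simpa using hk)
    have e : z + m - k = z := this
    rw [e] at hka
    exact hka

/-- one step: if the windows `[z₁, z₁ + D)` and `[z₂, z₂ + D)` of `A` agree, so do the next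
points. -/
theorem window_step_fwd (h : ∀ n : ℤ, ∃! k, k ∈ K ∧ n - k ∈ A) {m : ℤ} (hm : m ∈ K)
    {D : ℤ} (hD : ∀ k ∈ K, m ≤ k ∧ k - m ≤ D) {z₁ z₂ : ℤ}
    (hw : ∀ i : ℤ, 0 ≤ i → i < D → (z₁ + i ∈ A ↔ z₂ + i ∈ A)) :
    z₁ + D ∈ A → z₂ + D ∈ A := by
  intro h1
  rw [mem_iff_anchor h hm] at h1 ⊢
  intro a ha hk
  by_contra hne
  obtain ⟨hk1, hk2⟩ := hD _ hk
  have hi1 : 0 ≤ a - z₂ := by omega
  have hi2 : a - z₂ < D := by omega
  have ha' : z₁ + (a - z₂) ∈ A := (hw (a - z₂) hi1 hi2).2 (by simpa using ha)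
  have hk' : z₁ + D + m - (z₁ + (a - z₂)) ∈ K := by
    have : z₁ + D + m - (z₁ + (a - z₂)) = z₂ + D + m - a := by ring
    rw [this]; exact hk
  have := h1 _ ha' hk'
  omega

theorem window_step_bwd (h : ∀ n : ℤ, ∃! k, k ∈ K ∧ n - k ∈ A) {M : ℤ} (hM : M ∈ K)
    {D : ℤ} (hD : ∀ k ∈ K, k ≤ M ∧ M - k ≤ D) {z₁ z₂ : ℤ}
    (hw : ∀ i : ℤ, 0 < i → i ≤ D → (z₁ + i ∈ A ↔ z₂ + i ∈ A)) :
    z₁ ∈ A → z₂ ∈ A := by
  intro h1
  rw [mem_iff_anchor h hM] at h1 ⊢
  intro a ha hk
  by_contra hne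
  obtain ⟨hk1, hk2⟩ := hD _ hk
  have hi1 : 0 < a - z₂ := by omega
  have hi2 : a - z₂ ≤ D := by omega
  have ha' : z₁ + (a - z₂) ∈ A := (hw (a - z₂) hi1 hi2).2 (by simpa using ha)
  have hk' : z₁ + M - (z₁ + (a - z₂)) ∈ K := by
    have : z₁ + M - (z₁ + (a - z₂)) = z₂ + M - a := by ring
    rw [this]; exact hk
  have := h1 _ ha' hk'
  omega

/-- if two windows of length `D` of a tiling agree then the tiling is invariant under the
shift between them. -/
theorem periodic_of_window (h : ∀ n : ℤ, ∃! k, k ∈ K ∧ n - k ∈ A) {m M : ℤ} (hm : m ∈ K)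
    (hM : M ∈ K) {D : ℤ} (hDpos : 0 < D) (hD : ∀ k ∈ K, m ≤ k ∧ k ≤ M ∧ M - m ≤ D)
    {z₁ z₂ : ℤ} (hw : ∀ i : ℤ, 0 ≤ i → i < D → (z₁ + i ∈ A ↔ z₂ + i ∈ A)) :
    ∀ n : ℤ, n + (z₂ - z₁) ∈ A ↔ n ∈ A := by
  have hD1 : ∀ k ∈ K, m ≤ k ∧ k - m ≤ D := fun k hk => by
    obtain ⟨h1, h2, h3⟩ := hD k hk; exact ⟨h1, by omega⟩
  have hD2 : ∀ k ∈ K, k ≤ M ∧ M - k ≤ D := fun k hk => by
    obtain ⟨h1, h2, h3⟩ := hD k hk; exact ⟨h2, by omega⟩
  have key : ∀ t : ℤ, ∀ i : ℤ, 0 ≤ i → i < D → (z₁ + t + i ∈ A ↔ z₂ + t + i ∈ A) := by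
    intro t
    induction t using Int.induction_on with
    | zero => simpa using hw
    | succ t ih =>
      intro i hi0 hiD
      by_cases hlast : i + 1 < D
      · have := ih (i + 1) (by omega) hlast
        have e1 : z₁ + (t + 1) + i = z₁ + t + (i + 1) := by ring
        have e2 : z₂ + (t + 1) + i = z₂ + t + (i + 1) := by ring
        rw [e1, e2]; exact this
      · have hi : i = D - 1 := by omega
        have e1 : z₁ + (t + 1) + i = (z₁ + t) + D := by rw [hi]; ring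
        have e2 : z₂ + (t + 1) + i = (z₂ + t) + D := by rw [hi]; ring
        rw [e1, e2]
        exact ⟨window_step_fwd h hm hD1 ih,
          window_step_fwd h hm hD1 (fun j hj0 hjD => (ih j hj0 hjD).symm)⟩
    | pred t ih =>
      intro i hi0 hiD
      by_cases hfirst : 0 < i
      · have := ih (i - 1) (by omega) (by omega)
        have e1 : z₁ + (-t - 1) + i = z₁ + -t + (i - 1) := by ring
        have e2 : z₂ + (-t - 1) + i = z₂ + -t + (i - 1) := by ring
        rw [e1, e2]; exact this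
      · have hi : i = 0 := by omega
        subst hi
        have hw' : ∀ j : ℤ, 0 < j → j ≤ D →
            (z₁ + (-t - 1) + 0 + j ∈ A ↔ z₂ + (-t - 1) + 0 + j ∈ A) := by
          intro j hj0 hjD
          have := ih (j - 1) (by omega) (by omega)
          have e1 : z₁ + (-t - 1) + 0 + j = z₁ + -t + (j - 1) := by ring
          have e2 : z₂ + (-t - 1) + 0 + j = z₂ + -t + (j - 1) := by ring
          rw [e1, e2]; exact this
        exact ⟨window_step_bwd h hM hD2 hw',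
          window_step_bwd h hM hD2 (fun j hj0 hjD => (hw' j hj0 hjD).symm)⟩
  intro n
  have := key (n - z₁) 0 le_rfl hDpos
  have e1 : z₁ + (n - z₁) + 0 = n := by ring
  have e2 : z₂ + (n - z₁) + 0 = n + (z₂ - z₁) := by ring
  rw [e1, e2] at this
  exact this.symm

/-- Newman: a tiling of `ℤ` by a finite set of diameter at most `D` has a period `P`
with `0 < P ≤ 2 ^ D`. -/
theorem newman (h : ∀ n : ℤ, ∃! k, k ∈ K ∧ n - k ∈ A) {m M : ℤ} (hm : m ∈ K) (hM : M ∈ K)
    (D : ℕ) (hD : ∀ k ∈ K, m ≤ k ∧ k ≤ M ∧ M - m ≤ D) :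
    ∃ P : ℕ, 0 < P ∧ P ≤ 2 ^ D ∧ ∀ n : ℤ, n + (P : ℤ) ∈ A ↔ n ∈ A := by
  classical
  rcases Nat.eq_zero_or_pos D with hD0 | hDpos
  · -- K is a single point and A is everything
    subst hD0
    refine ⟨1, one_pos, by simp, ?_⟩
    have hall : ∀ z : ℤ, z ∈ A := by
      intro z
      rw [mem_iff_anchor h hm]
      intro a _ hk
      obtain ⟨h1, h2, h3⟩ := hD _ hk
      have : M - m ≤ 0 := by simpa using h3
      omega
    intro n
    exact ⟨fun _ => hall n, fun _ => hall _⟩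
  · let W : ℕ → Finset ℕ := fun z => (Finset.range D).filter (fun i => (z : ℤ) + (i : ℤ) ∈ A)
    have hmaps : ∀ z ∈ Finset.range (2 ^ D + 1), W z ∈ (Finset.range D).powerset := by
      intro z _
      rw [Finset.mem_powerset]
      exact Finset.filter_subset _ _
    have hcard : ((Finset.range D).powerset).card < (Finset.range (2 ^ D + 1)).card := by
      rw [Finset.card_powerset, Finset.card_range, Finset.card_range]
      omega
    obtain ⟨x, hx, y, hy, hxy, hWxy⟩ :=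
      Finset.exists_ne_map_eq_of_card_lt_of_maps_to hcard hmaps
    rw [Finset.mem_range] at hx hy
    -- a general statement for ordered pairs
    have main : ∀ x y : ℕ, x < y → y < 2 ^ D + 1 → W x = W y →
        ∃ P : ℕ, 0 < P ∧ P ≤ 2 ^ D ∧ ∀ n : ℤ, n + (P : ℤ) ∈ A ↔ n ∈ A := by
      intro x y hlt hy hW
      refine ⟨y - x, by omega, by omega, ?_⟩
      have hw : ∀ i : ℤ, 0 ≤ i → i < (D : ℤ) → ((x : ℤ) + i ∈ A ↔ (y : ℤ) + i ∈ A) := by
        intro i hi0 hiD
        have hi : (i.toNat : ℤ) = i := Int.toNat_of_nonneg hi0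
        have hmem : i.toNat ∈ Finset.range D := by
          rw [Finset.mem_range]; omega
        have e1 : i.toNat ∈ W x ↔ (x : ℤ) + i ∈ A := by
          simp only [W, Finset.mem_filter, hmem, true_and, hi]
        have e2 : i.toNat ∈ W y ↔ (y : ℤ) + i ∈ A := by
          simp only [W, Finset.mem_filter, hmem, true_and, hi]
        rw [← e1, ← e2, hW]
      have := periodic_of_window h hm hM (by exact_mod_cast hDpos) hD hw
      intro n
      have e : ((y - x : ℕ) : ℤ) = (y : ℤ) - (x : ℤ) := by omega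
      rw [e]
      exact this n
    rcases Nat.lt_or_gt_of_ne hxy with hlt | hlt
    · exact main x y hlt hy hWxy
    · exact main y x hlt hx hWxy.symm

/-- uniform period: every tiling of `ℤ` by `K` is invariant under `(2 ^ D)!`. -/
theorem newman_uniform (h : ∀ n : ℤ, ∃! k, k ∈ K ∧ n - k ∈ A) {m M : ℤ} (hm : m ∈ K)
    (hM : M ∈ K) (D : ℕ) (hD : ∀ k ∈ K, m ≤ k ∧ k ≤ M ∧ M - m ≤ D) :
    ∀ n : ℤ, n + (((2 ^ D).factorial : ℕ) : ℤ) ∈ A ↔ n ∈ A := by
  obtain ⟨P, hP0, hP, hper⟩ := newman h hm hM D hD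
  obtain ⟨c, hc⟩ := Nat.dvd_factorial hP0 hP
  rw [hc]
  have hmul : ∀ c : ℕ, ∀ n : ℤ, n + ((P * c : ℕ) : ℤ) ∈ A ↔ n ∈ A := by
    intro c
    induction c with
    | zero => intro n; simp
    | succ c ih =>
      intro n
      have e : n + ((P * (c + 1) : ℕ) : ℤ) = (n + ((P * c : ℕ) : ℤ)) + (P : ℤ) := by
        push_cast; ring
      rw [e, hper, ih]
  exact hmul c

end Newman

end Vale.Agent.Lib.P043
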