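import Vale.Agent.Lib.P043.Main
import Vale.Agent.Lib.P043.Newman

/-!
Finite sets contained in a coset of a cyclic subgroup are rigid (by Newman's theorem),
and the periodic tiling theorem for direct sums `F₁ + F₂` where each summand has prime
cardinality or is collinear, in any finitely generated abelian group.
-/

namespace Vale.Agent.Lib.P043

open Finset Pointwise

variable {G : Type*} [AddCommGroup G]

/-- Sets contained in a coset of a cyclic subgroup are rigid. -/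
theorem rigid_of_collinear {F : Finset G}
    (hF : ∃ f₀ v : G, ∀ f ∈ F, ∃ k : ℤ, f = f₀ + k • v) : ∃ n : ℕ, Rigid F n := by
  classical
  obtain ⟨f₀, v, hv⟩ := hF
  rcases F.eq_empty_or_nonempty with hemp | hne
  · refine ⟨1, one_pos, fun B h => ?_⟩
    have := h.nonempty
    rw [hemp] at this
    exact absurd this Finset.not_nonempty_empty
  choose! κ hκ using hv
  set K : Finset ℤ := F.image κ with hK
  have hKne : K.Nonempty := hne.image κ
  set m := K.min' hKne with hm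
  set M := K.max' hKne with hM
  set D : ℕ := (M - m).toNat with hD
  have hmM : m ≤ M := Finset.min'_le_max' K hKne
  have hDK : ∀ k ∈ K, m ≤ k ∧ k ≤ M ∧ M - m ≤ (D : ℤ) := by
    intro k hk
    refine ⟨Finset.min'_le K k hk, Finset.le_max' K k hk, ?_⟩
    rw [hD, Int.toNat_of_nonneg (by omega)]
  refine ⟨(2 ^ D).factorial, Nat.factorial_pos _, ?_⟩
  intro B hB γ hγ b
  have h1 := DTile.one_iff.1 hB
  -- invariance under the fixed multiple of v
  have hstep : ∀ x : G, x + (((2 ^ D).factorial : ℕ) : ℤ) • v ∈ B ↔ x ∈ B := by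
    intro x
    have hA : ∀ N : ℤ, ∃! k, k ∈ K ∧ N - k ∈ {j : ℤ | x + j • v ∈ B} := by
      intro N
      obtain ⟨f, ⟨hf, hfB⟩, hfu⟩ := h1 (x + f₀ + N • v)
      have hval : ∀ f' ∈ F, x + f₀ + N • v - f' = x + (N - κ f') • v := by
        intro f' hf'
        conv_lhs => rw [hκ f' hf']
        rw [sub_smul]; abel
      refine ⟨κ f, ⟨Finset.mem_image_of_mem κ hf, ?_⟩, ?_⟩
      · show x + (N - κ f) • v ∈ B
        rw [← hval f hf]; exact hfB
      · rintro k' ⟨hk', hk'B⟩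
        obtain ⟨f', hf', rfl⟩ := Finset.mem_image.1 hk'
        have hk'B' : x + (N - κ f') • v ∈ B := hk'B
        rw [← hval f' hf'] at hk'B'
        rw [hfu f' ⟨hf', hk'B'⟩]
    have := newman_uniform hA (Finset.min'_mem K hKne) (Finset.max'_mem K hKne) D hDK 0
    simpa using this
  have hs : (((2 ^ D).factorial : ℕ) : ℤ) • v ∈ stab B := hstep
  -- every element of the difference group is a multiple of v
  have hmult : ∃ j : ℤ, γ = j • v := by
    unfold diffGroup at hγ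
    induction hγ using AddSubgroup.closure_induction with
    | mem x hx =>
      obtain ⟨f, hf, f', hf', rfl⟩ := hx
      refine ⟨κ f - κ f', ?_⟩
      conv_lhs => rw [hκ f hf, hκ f' hf']
      rw [sub_smul]; abel
    | zero => exact ⟨0, by simp⟩
    | add x y _ _ hx hy =>
      obtain ⟨j, rfl⟩ := hx
      obtain ⟨j', rfl⟩ := hy
      exact ⟨j + j', by rw [add_smul]⟩
    | neg x _ hx =>
      obtain ⟨j, rfl⟩ := hx
      exact ⟨-j, by rw [neg_smul]⟩
  obtain ⟨j, rfl⟩ := hmult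
  have hmem : (2 ^ D).factorial • (j • v) ∈ stab B := by
    have e : (2 ^ D).factorial • (j • v) = j • ((((2 ^ D).factorial : ℕ) : ℤ) • v) := by
      rw [natCast_zsmul, smul_comm]
    rw [e]
    exact zsmul_mem hs j
  exact hmem b

variable [DecidableEq G]

/-- the general statement in tiling form, for rigid summands. -/
theorem periodic_tiling_of_rigid [AddGroup.FG G] (F₁ F₂ : Finset G) {n₁ n₂ : ℕ}
    (h₁ : Rigid F₁ n₁) (h₂ : Rigid F₂ n₂)
    (hdir : (F₁ + F₂).card = F₁.card * F₂.card)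
    (htile : ∃ A : Set G, ∀ g : G, ∃! q : G × G, q.1 ∈ A ∧ q.2 ∈ F₁ + F₂ ∧ q.1 + q.2 = g) :
    ∃ A : Set G, (∀ g : G, ∃! q : G × G, q.1 ∈ A ∧ q.2 ∈ F₁ + F₂ ∧ q.1 + q.2 = g) ∧
      ∃ H : AddSubgroup G, H.FiniteIndex ∧ ∀ h ∈ H, h +ᵥ A = A := by
  obtain ⟨A, hA⟩ := htile
  have hT := T2_of_tiling hdir hA
  have hfg : (⊤ : AddSubgroup G).FG := AddGroup.fg_def.1 inferInstance
  obtain ⟨S, hS⟩ := hfg
  obtain ⟨A', hT', N, hN, hinv⟩ := exists_periodic_T2_fg hT h₁ h₂ S hS
  refine ⟨A', tiling_of_T2 hT', ?_⟩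
  obtain ⟨d, φ, hφ⟩ := AddSubgroup.fg_iff_exists_fin_addMonoidHom.1
    (AddGroup.fg_def.1 (inferInstance : AddGroup.FG G))
  have hsurj : Function.Surjective φ := AddMonoidHom.range_eq_top.1 hφ
  have : NeZero N := ⟨hN.ne'⟩
  have hfin : ((AddMonoidHom.compLeft (Int.castAddHom (ZMod N)) (Fin d)).ker).FiniteIndex :=
    AddSubgroup.finiteIndex_ker _
  refine ⟨((AddMonoidHom.compLeft (Int.castAddHom (ZMod N)) (Fin d)).ker).map φ, ?_, ?_⟩
  · constructor
    intro h0
    have hdvd := AddSubgroup.index_map_dvd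
      ((AddMonoidHom.compLeft (Int.castAddHom (ZMod N)) (Fin d)).ker) hsurj
    rw [h0, zero_dvd_iff] at hdvd
    exact hfin.index_ne_zero hdvd
  · intro h hh
    obtain ⟨k, hk, rfl⟩ := AddSubgroup.mem_map.1 hh
    rw [AddMonoidHom.mem_ker] at hk
    have hdvd : ∀ i, (N : ℤ) ∣ k i := by
      intro i
      have := congrFun hk i
      simp only [AddMonoidHom.compLeft_apply, Function.comp_apply, Int.coe_castAddHom,
        Pi.zero_apply] at this
      exact (ZMod.intCast_zmod_eq_zero_iff_dvd (k i) N).1 this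
    have hv : k = N • (fun i => k i / (N : ℤ)) := by
      funext i
      simp only [Pi.smul_apply, nsmul_eq_mul]
      exact (Int.mul_ediv_cancel' (hdvd i)).symm
    have hstab : φ k ∈ stab A' := by
      rw [hv, map_nsmul]; exact hinv _
    ext x
    rw [Set.mem_vadd_set_iff_neg_vadd_mem, vadd_eq_add, add_comm]
    exact (neg_mem hstab) x

/-- Periodic tiling theorem for `F₁ + F₂`, each summand of prime cardinality or collinear,
in a finitely generated abelian group. -/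
theorem periodic_tiling_fg [AddGroup.FG G] (F₁ F₂ : Finset G)
    (h₁ : F₁.card.Prime ∨ ∃ f₀ v : G, ∀ f ∈ F₁, ∃ k : ℤ, f = f₀ + k • v)
    (h₂ : F₂.card.Prime ∨ ∃ f₀ v : G, ∀ f ∈ F₂, ∃ k : ℤ, f = f₀ + k • v)
    (hdir : (F₁ + F₂).card = F₁.card * F₂.card)
    (htile : ∃ A : Set G, ∀ g : G, ∃! q : G × G, q.1 ∈ A ∧ q.2 ∈ F₁ + F₂ ∧ q.1 + q.2 = g) :
    ∃ A : Set G, (∀ g : G, ∃! q : G × G, q.1 ∈ A ∧ q.2 ∈ F₁ + F₂ ∧ q.1 + q.2 = g) ∧
      ∃ H : AddSubgroup G, H.FiniteIndex ∧ ∀ h ∈ H, h +ᵥ A = A := by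
  have r₁ : ∃ n₁, Rigid F₁ n₁ := by
    rcases h₁ with h | h
    · exact ⟨_, rigid_of_prime h⟩
    · exact rigid_of_collinear h
  have r₂ : ∃ n₂, Rigid F₂ n₂ := by
    rcases h₂ with h | h
    · exact ⟨_, rigid_of_prime h⟩
    · exact rigid_of_collinear h
  obtain ⟨n₁, hr₁⟩ := r₁
  obtain ⟨n₂, hr₂⟩ := r₂
  exact periodic_tiling_of_rigid F₁ F₂ hr₁ hr₂ hdir htile

end Vale.Agent.Lib.P043
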