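import Mathlib

/-!
Dilation lemma for translational tilings of an abelian group by a finite set,
and the resulting periodicity of every tiling by a set of prime cardinality.
-/

namespace Vale.Agent.Lib.P043

open Finset

variable {G : Type*} [AddCommGroup G]

/-- `DTile B F r`: every `g` is `b + r • f` for exactly one `f ∈ F` (with `b ∈ B`). -/
def DTile (B : Set G) (F : Finset G) (r : ℕ) : Prop :=
  ∀ g : G, ∃! f, f ∈ F ∧ g - r • f ∈ B

section Shift

variable (q : ℕ) (G)

/-- the shift operator on functions `G → ZMod q`. -/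
noncomputable def shiftOp (a : G) : Module.End (ZMod q) (G → ZMod q) :=
  LinearMap.funLeft (ZMod q) (ZMod q) (fun g => g - a)

variable {G}

theorem shiftOp_apply (a : G) (u : G → ZMod q) (g : G) : shiftOp G q a u g = u (g - a) := rfl

theorem shiftOp_mul (a b : G) : shiftOp G q a * shiftOp G q b = shiftOp G q (a + b) := by
  ext u g
  simp only [Module.End.mul_apply, shiftOp_apply]
  congr 1
  abel

theorem shiftOp_commute (a b : G) : Commute (shiftOp G q a) (shiftOp G q b) := by
  unfold Commute SemiconjBy
  rw [shiftOp_mul, shiftOp_mul, add_comm]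

theorem shiftOp_zero : shiftOp G q (0 : G) = 1 := by
  ext u g
  simp [shiftOp_apply]

theorem shiftOp_pow (a : G) (n : ℕ) : shiftOp G q a ^ n = shiftOp G q (n • a) := by
  induction n with
  | zero => simp [shiftOp_zero]
  | succ n ih => rw [pow_succ, ih, shiftOp_mul, succ_nsmul]

theorem algebraMap_end_injective :
    Function.Injective (algebraMap (ZMod q) (Module.End (ZMod q) (G → ZMod q))) := by
  intro c c' h
  have h1 := congrArg (fun e : Module.End (ZMod q) (G → ZMod q) => e (fun _ => 1) 0) h
  simpa [Algebra.algebraMap_eq_smul_one] using h1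

theorem sum_pow_char_commute [Fact q.Prime] {ι : Type*} (s : Finset ι)
    (x : ι → Module.End (ZMod q) (G → ZMod q)) (hc : ∀ i j, Commute (x i) (x j)) :
    (∑ i ∈ s, x i) ^ q = ∑ i ∈ s, x i ^ q := by
  classical
  have : CharP (Module.End (ZMod q) (G → ZMod q)) q :=
    charP_of_injective_algebraMap (algebraMap_end_injective q) q
  induction s using Finset.induction_on with
  | empty =>
    simp only [Finset.sum_empty]
    exact zero_pow (Fact.out : q.Prime).ne_zero
  | insert a s ha ih =>
    rw [Finset.sum_insert ha, Finset.sum_insert ha, ← ih]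
    exact add_pow_char_of_commute q (Commute.sum_right _ _ _ (fun i _ => hc a i))

/-- the sum of the shifts by `r • f`, `f ∈ F`. -/
noncomputable def sumOp (F : Finset G) (r : ℕ) : Module.End (ZMod q) (G → ZMod q) :=
  ∑ f ∈ F, shiftOp G q (r • f)

theorem sumOp_apply (F : Finset G) (r : ℕ) (u : G → ZMod q) (g : G) :
    sumOp q F r u g = ∑ f ∈ F, u (g - r • f) := by
  simp [sumOp, LinearMap.sum_apply, Finset.sum_apply, shiftOp_apply]

theorem sumOp_pow [Fact q.Prime] (F : Finset G) (r : ℕ) :
    sumOp q F r ^ q = sumOp q F (q * r) := by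
  unfold sumOp
  rw [sum_pow_char_commute q F _ (fun i j => shiftOp_commute q _ _)]
  refine Finset.sum_congr rfl (fun f _ => ?_)
  rw [shiftOp_pow, mul_smul]

theorem sumOp_pow_const (F : Finset G) (r : ℕ) (k : ℕ) (c : ZMod q) :
    (sumOp q F r ^ k) (fun _ => c) = fun _ => (F.card : ZMod q) ^ k * c := by
  induction k with
  | zero => simp
  | succ k ih =>
    rw [pow_succ', Module.End.mul_apply, ih]
    funext g
    rw [sumOp_apply]
    simp only [Finset.sum_const, nsmul_eq_mul]
    ring

end Shift

theorem DTile.nonempty {B : Set G} {F : Finset G} {r : ℕ} (h : DTile B F r) : F.Nonempty := by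
  obtain ⟨f, hf, -⟩ := h 0
  exact ⟨f, hf.1⟩

theorem DTile.card_filter {B : Set G} {F : Finset G} {r : ℕ} (h : DTile B F r) (g : G)
    [DecidablePred (fun f => g - r • f ∈ B)] :
    (F.filter (fun f => g - r • f ∈ B)).card = 1 := by
  obtain ⟨f, hf, hu⟩ := h g
  rw [Finset.card_eq_one]
  refine ⟨f, ?_⟩
  ext f'
  simp only [Finset.mem_filter, Finset.mem_singleton]
  constructor
  · intro h'
    exact hu f' h'
  · rintro rfl
    exact hf

/-- Dilation by a prime not dividing `|F|`. -/
theorem DTile.mul_prime {B : Set G} {F : Finset G} {r : ℕ} (h : DTile B F r) {q : ℕ}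
    (hq : q.Prime) (hqF : ¬ q ∣ F.card) : DTile B F (q * r) := by
  classical
  have : Fact q.Prime := ⟨hq⟩
  set u : G → ZMod q := fun g => if g ∈ B then 1 else 0 with hu
  -- step 1: the operator identity applied to the indicator of B
  have h1 : sumOp q F r u = fun _ => 1 := by
    funext g
    rw [sumOp_apply]
    obtain ⟨f, hf, hfu⟩ := h g
    rw [Finset.sum_eq_single f]
    · simp [hu, hf.2]
    · intro f' hf' hne
      have : ¬ (g - r • f' ∈ B) := fun hB => hne (hfu f' ⟨hf', hB⟩)
      simp [hu, this]
    · intro hnot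
      exact absurd hf.1 hnot
  have hcard : (F.card : ZMod q) ≠ 0 := by
    rw [Ne, ZMod.natCast_eq_zero_iff]
    exact hqF
  have h2 : sumOp q F (q * r) u = fun _ => 1 := by
    rw [← sumOp_pow]
    have hq1 : sumOp q F r ^ q = sumOp q F r ^ (q - 1) * sumOp q F r := by
      rw [← pow_succ, Nat.sub_add_cancel hq.one_le]
    rw [hq1, Module.End.mul_apply, h1, sumOp_pow_const]
    funext g
    rw [ZMod.pow_card_sub_one_eq_one hcard, mul_one]
  -- the multiplicity function
  set μ : G → ℕ := fun g => (F.filter (fun f => g - (q * r) • f ∈ B)).card with hμ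
  have h3 : ∀ g, μ g ≠ 0 := by
    intro g h0
    have := congrFun h2 g
    rw [sumOp_apply] at this
    simp only [hu] at this
    rw [Finset.sum_boole] at this
    simp only [hμ] at h0
    rw [h0] at this
    simp at this
  -- double counting
  have h4 : ∀ g, ∑ f' ∈ F, μ (g - r • f') = F.card := by
    intro g
    have e1 : ∀ f' ∈ F, μ (g - r • f') =
        ∑ f ∈ F, (if g - r • f' - (q * r) • f ∈ B then 1 else 0) := by
      intro f' _
      simp only [hμ, Finset.card_filter]
    rw [Finset.sum_congr rfl e1, Finset.sum_comm]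
    have e2 : ∀ f ∈ F, ∑ f' ∈ F, (if g - r • f' - (q * r) • f ∈ B then 1 else 0) = 1 := by
      intro f _
      have := h.card_filter (g - (q * r) • f)
      rw [Finset.card_filter] at this
      calc ∑ f' ∈ F, (if g - r • f' - (q * r) • f ∈ B then 1 else 0)
          = ∑ f' ∈ F, (if g - (q * r) • f - r • f' ∈ B then 1 else 0) :=
            Finset.sum_congr rfl (fun f' _ => by rw [sub_right_comm])
        _ = 1 := this
    rw [Finset.sum_congr rfl e2]
    simp
  have h5 : ∀ g, ∀ f' ∈ F, μ (g - r • f') = 1 := by
    intro g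
    have hsum : ∑ f' ∈ F, (μ (g - r • f') - 1) = 0 := by
      have e : ∑ f' ∈ F, μ (g - r • f') = ∑ f' ∈ F, (μ (g - r • f') - 1) + F.card := by
        have : ∀ f' ∈ F, μ (g - r • f') = (μ (g - r • f') - 1) + 1 := by
          intro f' _
          have := h3 (g - r • f')
          omega
        calc ∑ f' ∈ F, μ (g - r • f') = ∑ f' ∈ F, ((μ (g - r • f') - 1) + 1) :=
              Finset.sum_congr rfl this
          _ = ∑ f' ∈ F, (μ (g - r • f') - 1) + F.card := by
              rw [Finset.sum_add_distrib]; simp
      have := h4 g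
      omega
    intro f' hf'
    have := (Finset.sum_eq_zero_iff.mp hsum) f' hf'
    have := h3 (g - r • f')
    omega
  obtain ⟨f₀, hf₀⟩ := h.nonempty
  intro g
  have h6 : μ g = 1 := by
    have := h5 (g + r • f₀) f₀ hf₀
    rwa [add_sub_cancel_right] at this
  simp only [hμ] at h6
  rw [Finset.card_eq_one] at h6
  obtain ⟨f, hf⟩ := h6
  refine ⟨f, ?_, ?_⟩
  · have : f ∈ F.filter (fun f => g - (q * r) • f ∈ B) := by rw [hf]; simp
    simpa using this
  · intro f' hf'
    have : f' ∈ F.filter (fun f => g - (q * r) • f ∈ B) := by simpa using hf'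
    rw [hf] at this
    simpa using this

/-- Dilation lemma: a tiling complement of `F` is a tiling complement of `r • F`
for every `r` coprime to `|F|`. -/
theorem DTile.dilate {B : Set G} {F : Finset G} (h : DTile B F 1) :
    ∀ r : ℕ, 0 < r → r.Coprime F.card → DTile B F r := by
  intro r
  induction r using Nat.strong_induction_on with
  | _ r ih =>
    intro hr hcop
    rcases Nat.lt_or_ge r 2 with hlt | hge
    · have : r = 1 := by omega
      subst this
      exact h
    · have hq : (r.minFac).Prime := Nat.minFac_prime (by omega)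
      have hdvd : r.minFac ∣ r := Nat.minFac_dvd r
      obtain ⟨s, hs⟩ := hdvd
      have hspos : 0 < s := by
        rcases Nat.eq_zero_or_pos s with h0 | h0
        · subst h0; omega
        · exact h0
      have hslt : s < r := by
        have := hq.two_le
        nlinarith
      have hscop : s.Coprime F.card :=
        Nat.Coprime.coprime_dvd_left (Dvd.intro_left _ hs.symm) hcop
      have hqF : ¬ r.minFac ∣ F.card := by
        intro hd
        have := Nat.eq_one_of_dvd_coprimes hcop (Nat.minFac_dvd r) hd
        exact hq.one_lt.ne' this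
      have := (ih s hslt hspos hscop).mul_prime hq hqF
      rwa [← hs] at this

end Vale.Agent.Lib.P043
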