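import Mathlib

/-!
Two lemmas on subgroups of abelian groups: almost-complements, and
equivariant projections onto a subgroup.
-/

namespace Vale.Agent.Lib.P043

variable {G : Type*} [AddCommGroup G]

theorem exists_maximal_disjoint (M K : AddSubgroup G) :
    ∃ K' : AddSubgroup G, K' ≤ M ∧ K' ⊓ K = ⊥ ∧
      ∀ K'' : AddSubgroup G, K'' ≤ M → K'' ⊓ K = ⊥ → K' ≤ K'' → K'' ≤ K' := by
  let s : Set (AddSubgroup G) := {K' | K' ≤ M ∧ K' ⊓ K = ⊥}
  have hbot : (⊥ : AddSubgroup G) ∈ s := ⟨bot_le, bot_inf_eq _⟩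
  have key : ∀ c ⊆ s, IsChain (· ≤ ·) c → ∀ y ∈ c, ∃ ub ∈ s, ∀ z ∈ c, z ≤ ub := by
    intro c hcs hc y hy
    refine ⟨sSup c, ⟨?_, ?_⟩, fun z hz => le_sSup hz⟩
    · exact sSup_le (fun z hz => (hcs hz).1)
    · rw [eq_bot_iff]
      intro x hx
      rw [AddSubgroup.mem_inf] at hx
      obtain ⟨hx1, hx2⟩ := hx
      rw [AddSubgroup.mem_sSup_of_directedOn ⟨y, hy⟩ hc.directedOn] at hx1
      obtain ⟨z, hz, hxz⟩ := hx1
      have := (hcs hz).2
      rw [← this]
      exact AddSubgroup.mem_inf.2 ⟨hxz, hx2⟩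
  obtain ⟨m, -, hm⟩ := zorn_le_nonempty₀ s key ⊥ hbot
  exact ⟨m, hm.prop.1, hm.prop.2, fun K'' h1 h2 h3 => hm.le_of_ge ⟨h1, h2⟩ h3⟩

/-- Almost-complement: for a finitely generated subgroup `M` and any subgroup `K` there is
`K' ≤ M` meeting `K` trivially such that a fixed positive multiple of every element of `M`
lies in `K' + K`. -/
theorem exists_almost_compl (M K : AddSubgroup G) (S : Finset G)
    (hS : AddSubgroup.closure (S : Set G) = M) :
    ∃ K' : AddSubgroup G, K' ≤ M ∧ K' ⊓ K = ⊥ ∧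
      ∃ N : ℕ, 0 < N ∧ ∀ x ∈ M, N • x ∈ K' ⊔ K := by
  obtain ⟨K', hK'M, hK'K, hmax⟩ := exists_maximal_disjoint M K
  refine ⟨K', hK'M, hK'K, ?_⟩
  have h1 : ∀ x ∈ M, ∃ n : ℕ, 0 < n ∧ n • x ∈ K' ⊔ K := by
    intro x hx
    by_cases hdisj : (K' ⊔ AddSubgroup.zmultiples x) ⊓ K = ⊥
    · have hle := hmax (K' ⊔ AddSubgroup.zmultiples x)
        (sup_le hK'M (by rw [AddSubgroup.zmultiples_le]; exact hx)) hdisj le_sup_left
      have : x ∈ K' := hle (AddSubgroup.mem_sup_right (AddSubgroup.mem_zmultiples x))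
      exact ⟨1, one_pos, by rw [one_smul]; exact AddSubgroup.mem_sup_left this⟩
    · have : ∃ y, y ∈ (K' ⊔ AddSubgroup.zmultiples x) ⊓ K ∧ y ≠ 0 := by
        by_contra hcon
        apply hdisj
        rw [eq_bot_iff]
        intro y hy
        rw [AddSubgroup.mem_bot]
        by_contra hy0
        exact hcon ⟨y, hy, hy0⟩
      obtain ⟨y, hy, hy0⟩ := this
      rw [AddSubgroup.mem_inf, AddSubgroup.mem_sup] at hy
      obtain ⟨⟨k', hk', z, hz, rfl⟩, hyK⟩ := hy
      rw [AddSubgroup.mem_zmultiples_iff] at hz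
      obtain ⟨n, rfl⟩ := hz
      have hn : n ≠ 0 := by
        rintro rfl
        simp only [zero_smul, add_zero] at hyK hy0
        have : k' ∈ K' ⊓ K := AddSubgroup.mem_inf.2 ⟨hk', hyK⟩
        rw [hK'K] at this
        exact hy0 ((AddSubgroup.mem_bot).1 this)
      have hnx : n • x ∈ K' ⊔ K := by
        have : n • x = -k' + (k' + n • x) := by abel
        rw [this]
        exact add_mem (AddSubgroup.mem_sup_left (neg_mem hk')) (AddSubgroup.mem_sup_right hyK)
      refine ⟨n.natAbs, Int.natAbs_pos.2 hn, ?_⟩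
      rcases Int.natAbs_eq n with h | h
      · rw [← natCast_zsmul, ← h]; exact hnx
      · have : (n.natAbs : ℤ) • x = -(n • x) := by
          rw [← neg_zsmul]; congr 1; omega
        rw [← natCast_zsmul, this]; exact neg_mem hnx
  choose! n hn using h1
  refine ⟨∏ s ∈ S, n s, ?_, ?_⟩
  · apply Finset.prod_pos
    intro s hs
    exact (hn s (hS ▸ AddSubgroup.subset_closure hs)).1
  · intro x hx
    rw [← hS] at hx
    induction hx using AddSubgroup.closure_induction with
    | mem s hs =>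
      have hsM : s ∈ M := hS ▸ AddSubgroup.subset_closure hs
      obtain ⟨t, ht⟩ := Finset.dvd_prod_of_mem n hs
      rw [ht, mul_comm, mul_smul]
      exact nsmul_mem (hn s hsM).2 t
    | zero => simp
    | add x y _ _ hx hy => rw [smul_add]; exact add_mem hx hy
    | neg x _ hx => rw [smul_neg]; exact neg_mem hx

/-- Equivariant projection: if `Γ ∩ L = 0` there is a map `l : G → L` that is invariant under
translation by `Γ` and equivariant under translation by `L`. -/
theorem exists_proj (Γ L : AddSubgroup G) (h : Γ ⊓ L = ⊥) :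
    ∃ l : G → G, (∀ x, l x ∈ L) ∧ (∀ x, ∀ γ ∈ Γ, l (x + γ) = l x) ∧
      (∀ x, ∀ m ∈ L, l (x + m) = l x + m) := by
  classical
  let rep : G → G := fun x => (QuotientAddGroup.mk x : G ⧸ (Γ ⊔ L)).out
  have hrep : ∀ x, x - rep x ∈ Γ ⊔ L := by
    intro x
    have : (QuotientAddGroup.mk (rep x) : G ⧸ (Γ ⊔ L)) = QuotientAddGroup.mk x :=
      Quotient.out_eq _
    rw [QuotientAddGroup.eq] at this
    simpa [sub_eq_neg_add] using this
  have hrep_eq : ∀ x y, x - y ∈ Γ ⊔ L → rep x = rep y := by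
    intro x y hxy
    have : (QuotientAddGroup.mk x : G ⧸ (Γ ⊔ L)) = QuotientAddGroup.mk y := by
      rw [QuotientAddGroup.eq]
      have := neg_mem hxy
      simpa [neg_sub, sub_eq_neg_add] using this
    simp only [rep, this]
  have hdec : ∀ x, ∃ m, m ∈ L ∧ x - rep x - m ∈ Γ := by
    intro x
    obtain ⟨γ, hγ, m, hm, hsum⟩ := AddSubgroup.mem_sup.1 (hrep x)
    refine ⟨m, hm, ?_⟩
    rw [← hsum]
    simpa using hγ
  have huniq : ∀ s m m', m ∈ L → m' ∈ L → s - m ∈ Γ → s - m' ∈ Γ → m = m' := by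
    intro s m m' hm hm' h1 h2
    have hmem : m - m' ∈ Γ ⊓ L := by
      refine AddSubgroup.mem_inf.2 ⟨?_, sub_mem hm hm'⟩
      have : m - m' = (s - m') - (s - m) := by abel
      rw [this]
      exact sub_mem h2 h1
    rw [h] at hmem
    exact sub_eq_zero.1 ((AddSubgroup.mem_bot).1 hmem)
  refine ⟨fun x => Classical.choose (hdec x), ?_, ?_, ?_⟩
  · intro x
    exact (Classical.choose_spec (hdec x)).1
  · intro x γ hγ
    have h1 := Classical.choose_spec (hdec (x + γ))
    have h2 := Classical.choose_spec (hdec x)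
    have hr : rep (x + γ) = rep x :=
      hrep_eq _ _ (by simpa using AddSubgroup.mem_sup_left hγ)
    show Classical.choose (hdec (x + γ)) = Classical.choose (hdec x)
    generalize Classical.choose (hdec (x + γ)) = m1 at h1 ⊢
    generalize Classical.choose (hdec x) = m2 at h2 ⊢
    rw [hr] at h1
    apply huniq (x - rep x) _ _ h1.1 h2.1 _ h2.2
    have : x - rep x - m1 = (x + γ - rep x - m1) - γ := by abel
    rw [this]
    exact sub_mem h1.2 hγ
  · intro x m hm
    have h1 := Classical.choose_spec (hdec (x + m))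
    have h2 := Classical.choose_spec (hdec x)
    have hr : rep (x + m) = rep x :=
      hrep_eq _ _ (by simpa using AddSubgroup.mem_sup_right hm)
    show Classical.choose (hdec (x + m)) = Classical.choose (hdec x) + m
    generalize Classical.choose (hdec (x + m)) = m1 at h1 ⊢
    generalize Classical.choose (hdec x) = m2 at h2 ⊢
    rw [hr] at h1
    apply huniq (x + m - rep x) _ _ h1.1 (add_mem h2.1 hm) h1.2
    have : x + m - rep x - (m2 + m) = x - rep x - m2 := by abel
    rw [this]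
    exact h2.2

end Vale.Agent.Lib.P043
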