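import Vale.Agent.Lib.P043.Periodic

/-!
The periodic tiling conjecture in `ℤ^d` for tiles `F₁ + F₂` that are direct sums of two
sets of prime cardinality.
-/

namespace Vale.Agent.Lib.P043

open Finset Pointwise

variable {G : Type*} [AddCommGroup G] [DecidableEq G]

theorem T2_of_tiling {A : Set G} {F₁ F₂ : Finset G}
    (hdir : (F₁ + F₂).card = F₁.card * F₂.card)
    (h : ∀ g : G, ∃! q : G × G, q.1 ∈ A ∧ q.2 ∈ F₁ + F₂ ∧ q.1 + q.2 = g) : T2 A F₁ F₂ := by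
  have hinj := Finset.card_add_iff.1 hdir
  intro g
  obtain ⟨q, ⟨hqA, hqF, hqg⟩, hu⟩ := h g
  obtain ⟨f₁, hf₁, f₂, hf₂, hsum⟩ := Finset.mem_add.1 hqF
  refine ⟨(f₁, f₂), ⟨hf₁, hf₂, ?_⟩, ?_⟩
  · have : g - f₁ - f₂ = q.1 := by rw [← hqg, ← hsum]; abel
    show g - f₁ - f₂ ∈ A
    rw [this]; exact hqA
  · rintro ⟨f₁', f₂'⟩ ⟨hf₁', hf₂', hmem⟩
    have := hu (g - f₁' - f₂', f₁' + f₂') ⟨hmem, Finset.add_mem_add hf₁' hf₂', by
      show g - f₁' - f₂' + (f₁' + f₂') = g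
      abel⟩
    have e : f₁' + f₂' = f₁ + f₂ := by rw [hsum]; exact (Prod.ext_iff.1 this).2
    exact hinj (by simp [hf₁', hf₂']) (by simp [hf₁, hf₂]) e

theorem tiling_of_T2 {A : Set G} {F₁ F₂ : Finset G} (h : T2 A F₁ F₂) :
    ∀ g : G, ∃! q : G × G, q.1 ∈ A ∧ q.2 ∈ F₁ + F₂ ∧ q.1 + q.2 = g := by
  intro g
  obtain ⟨q, ⟨h1, h2, h3⟩, hu⟩ := h g
  refine ⟨(g - q.1 - q.2, q.1 + q.2), ⟨h3, Finset.add_mem_add h1 h2, by
    show g - q.1 - q.2 + (q.1 + q.2) = g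
    abel⟩, ?_⟩
  rintro ⟨a, f⟩ ⟨ha, hf, hsum⟩
  simp only at ha hf hsum
  obtain ⟨f₁, hf₁, f₂, hf₂, rfl⟩ := Finset.mem_add.1 hf
  have e : g - f₁ - f₂ = a := by rw [← hsum]; abel
  have := hu (f₁, f₂) ⟨hf₁, hf₂, by show g - f₁ - f₂ ∈ A; rw [e]; exact ha⟩
  rw [← this]
  simp only [Prod.mk.injEq, and_true]
  exact e.symm

/-- Periodic tiling conjecture in `ℤ^d` for direct sums of two sets of prime cardinality. -/
theorem periodic_tiling_int (d : ℕ) (F₁ F₂ : Finset (Fin d → ℤ))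
    (hp₁ : F₁.card.Prime) (hp₂ : F₂.card.Prime)
    (hdir : (F₁ + F₂).card = F₁.card * F₂.card)
    (htile : ∃ A : Set (Fin d → ℤ), ∀ g : Fin d → ℤ,
      ∃! q : (Fin d → ℤ) × (Fin d → ℤ), q.1 ∈ A ∧ q.2 ∈ F₁ + F₂ ∧ q.1 + q.2 = g) :
    ∃ A : Set (Fin d → ℤ),
      (∀ g : Fin d → ℤ,
        ∃! q : (Fin d → ℤ) × (Fin d → ℤ), q.1 ∈ A ∧ q.2 ∈ F₁ + F₂ ∧ q.1 + q.2 = g) ∧
      ∃ H : AddSubgroup (Fin d → ℤ), H.FiniteIndex ∧ ∀ h ∈ H, h +ᵥ A = A := by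
  obtain ⟨A, hA⟩ := htile
  have hT := T2_of_tiling hdir hA
  have hfg : (⊤ : AddSubgroup (Fin d → ℤ)).FG := AddGroup.fg_def.1 inferInstance
  obtain ⟨S, hS⟩ := hfg
  obtain ⟨A', hT', N, hN, hinv⟩ :=
    exists_periodic_T2_fg hT (rigid_of_prime hp₁) (rigid_of_prime hp₂) S hS
  refine ⟨A', tiling_of_T2 hT', ?_⟩
  have : NeZero N := ⟨hN.ne'⟩
  refine ⟨(AddMonoidHom.compLeft (Int.castAddHom (ZMod N)) (Fin d)).ker,
    AddSubgroup.finiteIndex_ker _, ?_⟩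
  intro h hh
  rw [AddMonoidHom.mem_ker] at hh
  have hdvd : ∀ i, (N : ℤ) ∣ h i := by
    intro i
    have := congrFun hh i
    simp only [AddMonoidHom.compLeft_apply, Function.comp_apply, Int.coe_castAddHom,
      Pi.zero_apply] at this
    exact (ZMod.intCast_zmod_eq_zero_iff_dvd (h i) N).1 this
  have hv : h = N • (fun i => h i / (N : ℤ)) := by
    funext i
    simp only [Pi.smul_apply, nsmul_eq_mul]
    exact (Int.mul_ediv_cancel' (hdvd i)).symm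
  have hstab : h ∈ stab A' := by rw [hv]; exact hinv _
  ext x
  rw [Set.mem_vadd_set_iff_neg_vadd_mem, vadd_eq_add, add_comm]
  exact (neg_mem hstab) x

end Vale.Agent.Lib.P043
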