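import Vale.Agent.Lib.P043.TwoPrime

/-!
Periodic tilings by a direct sum of two rigid sets.
-/

namespace Vale.Agent.Lib.P043

open Finset

variable {G : Type*} [AddCommGroup G]

/-- From a tiling by `F₁ + F₂` (both rigid) one gets a tiling which is invariant
under `N • γ` for all `γ` in the group generated by the differences, for some `N > 0`. -/
theorem exists_periodic_T2 {A : Set G} {F₁ F₂ : Finset G} (hT : T2 A F₁ F₂) {n₁ n₂ : ℕ}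
    (hp₁ : Rigid F₁ n₁) (hp₂ : Rigid F₂ n₂) :
    ∃ A' : Set G, T2 A' F₁ F₂ ∧ ∃ N : ℕ, 0 < N ∧
      ∀ γ ∈ diffGroup F₁ ⊔ diffGroup F₂, N • γ ∈ stab A' := by
  obtain ⟨S₂, hS₂⟩ := pGroup_fg F₂ n₂
  obtain ⟨M₂, hM₂le, hM₂disj, N₂, hN₂pos, hN₂⟩ :=
    exists_almost_compl (pGroup F₂ n₂) (diffGroup F₁) S₂ hS₂
  obtain ⟨A', hT', hA'inv1, hA'inv2, -⟩ :=
    hT.rebase hp₁ hp₂ M₂ hM₂le (by rw [inf_comm]; exact hM₂disj)
  obtain ⟨S₁, hS₁⟩ := pGroup_fg F₁ n₁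
  obtain ⟨M₁, hM₁le, hM₁disj, N₁, hN₁pos, hN₁⟩ :=
    exists_almost_compl (pGroup F₁ n₁) (diffGroup F₂) S₁ hS₁
  obtain ⟨A'', hT'', hA''inv1, -, hA''Q⟩ :=
    hT'.symm.rebase hp₂ hp₁ M₁ hM₁le (by rw [inf_comm]; exact hM₁disj)
  have hQ1 : M₂ ≤ stab A'' := hA''Q M₂ (hM₂le.trans (pGroup_le F₂ n₂)) hA'inv1
  have hQ2 : pGroup F₁ n₁ ⊓ pGroup F₂ n₂ ≤ stab A'' :=
    hA''Q _ (inf_le_right.trans (pGroup_le F₂ n₂)) hA'inv2
  have c1 : ∀ x ∈ pGroup F₁ n₁, (n₂ * N₁) • x ∈ stab A'' := by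
    intro x hx
    obtain ⟨m, hm, γ, hγ, hsum⟩ := AddSubgroup.mem_sup.1 (hN₁ x hx)
    have hγ1 : γ ∈ pGroup F₁ n₁ := by
      have : γ = N₁ • x - m := by rw [← hsum]; abel
      rw [this]
      exact sub_mem (nsmul_mem hx _) (hM₁le hm)
    have h1 : n₂ • γ ∈ stab A'' :=
      hQ2 (AddSubgroup.mem_inf.2 ⟨nsmul_mem hγ1 _, smul_mem_pGroup n₂ hγ⟩)
    have h2 : n₂ • m ∈ stab A'' := nsmul_mem (hA''inv1 hm) _
    have : (n₂ * N₁) • x = n₂ • m + n₂ • γ := by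
      rw [mul_smul, ← hsum, smul_add]
    rw [this]
    exact add_mem h2 h1
  have c2 : ∀ x ∈ pGroup F₂ n₂, (n₁ * N₂) • x ∈ stab A'' := by
    intro x hx
    obtain ⟨m, hm, γ, hγ, hsum⟩ := AddSubgroup.mem_sup.1 (hN₂ x hx)
    have hγ1 : γ ∈ pGroup F₂ n₂ := by
      have : γ = N₂ • x - m := by rw [← hsum]; abel
      rw [this]
      exact sub_mem (nsmul_mem hx _) (hM₂le hm)
    have h1 : n₁ • γ ∈ stab A'' :=
      hQ2 (AddSubgroup.mem_inf.2 ⟨smul_mem_pGroup n₁ hγ, nsmul_mem hγ1 _⟩)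
    have h2 : n₁ • m ∈ stab A'' := nsmul_mem (hQ1 hm) _
    have : (n₁ * N₂) • x = n₁ • m + n₁ • γ := by
      rw [mul_smul, ← hsum, smul_add]
    rw [this]
    exact add_mem h2 h1
  refine ⟨A'', hT''.symm, n₁ * n₂ * N₁ * N₂, ?_, ?_⟩
  · have := hp₁.1
    have := hp₂.1
    positivity
  · intro γ hγ
    obtain ⟨γ₁, hγ₁, γ₂, hγ₂, rfl⟩ := AddSubgroup.mem_sup.1 hγ
    rw [smul_add]
    refine add_mem ?_ ?_
    · have := c1 _ (smul_mem_pGroup n₁ hγ₁)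
      have e : (n₁ * n₂ * N₁ * N₂) • γ₁ = N₂ • ((n₂ * N₁) • n₁ • γ₁) := by
        rw [← mul_smul, ← mul_smul]; congr 1; ring
      rw [e]
      exact nsmul_mem this _
    · have := c2 _ (smul_mem_pGroup n₂ hγ₂)
      have e : (n₁ * n₂ * N₁ * N₂) • γ₂ = N₁ • ((n₁ * N₂) • n₂ • γ₂) := by
        rw [← mul_smul, ← mul_smul]; congr 1; ring
      rw [e]
      exact nsmul_mem this _

/-- In a finitely generated abelian group: from a tiling by `F₁ + F₂` (both rigid)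
one gets a tiling invariant under `N • G` for some `N > 0`. -/
theorem exists_periodic_T2_fg {A : Set G} {F₁ F₂ : Finset G} (hT : T2 A F₁ F₂) {n₁ n₂ : ℕ}
    (hp₁ : Rigid F₁ n₁) (hp₂ : Rigid F₂ n₂)
    (S : Finset G) (hS : AddSubgroup.closure (S : Set G) = ⊤) :
    ∃ A' : Set G, T2 A' F₁ F₂ ∧ ∃ N : ℕ, 0 < N ∧ ∀ v : G, N • v ∈ stab A' := by
  obtain ⟨A'', hT'', N, hN, hinv⟩ := exists_periodic_T2 hT hp₁ hp₂
  obtain ⟨L, -, hLdisj, N₃, hN₃, hN₃mem⟩ :=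
    exists_almost_compl ⊤ (diffGroup F₁ ⊔ diffGroup F₂) S hS
  obtain ⟨l, hlL, hlΓ, hlM⟩ :=
    exists_proj (diffGroup F₁ ⊔ diffGroup F₂) L (by rw [inf_comm]; exact hLdisj)
  obtain ⟨u₁, hu₁⟩ := hT.nonempty_left
  obtain ⟨u₂, hu₂⟩ := hT.nonempty_right
  refine ⟨{x | x - l x ∈ A''}, ?_, N * N₃, Nat.mul_pos hN hN₃, ?_⟩
  · intro g
    have hshift : ∀ f₁ ∈ F₁, ∀ f₂ ∈ F₂,
        (g - f₁ - f₂) - l (g - f₁ - f₂)
          = ((g - u₁ - u₂) - l (g - u₁ - u₂) + u₁ + u₂) - f₁ - f₂ := by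
      intro f₁ hf₁ f₂ hf₂
      have hmem : (u₁ - f₁) + (u₂ - f₂) ∈ diffGroup F₁ ⊔ diffGroup F₂ :=
        add_mem (AddSubgroup.mem_sup_left (sub_mem_diffGroup hu₁ hf₁))
          (AddSubgroup.mem_sup_right (sub_mem_diffGroup hu₂ hf₂))
      have e : g - f₁ - f₂ = (g - u₁ - u₂) + ((u₁ - f₁) + (u₂ - f₂)) := by abel
      rw [e, hlΓ _ _ hmem]
      abel
    obtain ⟨q, ⟨h1, h2, h3⟩, hu⟩ := hT'' ((g - u₁ - u₂) - l (g - u₁ - u₂) + u₁ + u₂)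
    refine ⟨q, ⟨h1, h2, ?_⟩, ?_⟩
    · show (g - q.1 - q.2) - l (g - q.1 - q.2) ∈ A''
      rw [hshift _ h1 _ h2]
      exact h3
    · rintro q' ⟨h1', h2', h3'⟩
      apply hu q' ⟨h1', h2', ?_⟩
      have : (g - q'.1 - q'.2) - l (g - q'.1 - q'.2) ∈ A'' := h3'
      rwa [hshift _ h1' _ h2'] at this
  · intro v x
    obtain ⟨m, hm, γ, hγ, hsum⟩ := AddSubgroup.mem_sup.1 (hN₃mem v (AddSubgroup.mem_top v))
    show (x + (N * N₃) • v) - l (x + (N * N₃) • v) ∈ A'' ↔ x - l x ∈ A''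
    have e : x + (N * N₃) • v = (x + N • γ) + N • m := by
      rw [mul_smul, ← hsum, smul_add]; abel
    rw [e, hlM _ _ (nsmul_mem hm _), hlΓ _ _ (nsmul_mem hγ _)]
    have e2 : x + N • γ + N • m - (l x + N • m) = (x - l x) + N • γ := by abel
    rw [e2]
    exact hinv γ hγ (x - l x)

end Vale.Agent.Lib.P043
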