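import Vale.Agent.Lib.P043.Dilation

/-!
Every tiling complement of a finite set of prime cardinality `p` in an abelian group
is invariant under `p • (f - f')` for all `f, f'` in the set (Szegedy).
-/

namespace Vale.Agent.Lib.P043

open Finset

variable {G : Type*} [AddCommGroup G]

theorem DTile.one_iff {B : Set G} {F : Finset G} :
    DTile B F 1 ↔ ∀ g : G, ∃! f, f ∈ F ∧ g - f ∈ B := by
  simp [DTile]

theorem DTile.prime_step {B : Set G} {F : Finset G} (h : DTile B F 1) (hp : F.card.Prime)
    {f f' : G} (hf : f ∈ F) (hf' : f' ∈ F) {b : G} (hb : b ∈ B) :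
    b + F.card • (f - f') ∈ B := by
  classical
  by_cases hff : f = f'
  · subst hff; simpa using hb
  set p := F.card with hpdef
  -- no two points of B differ by r • (f - f') with 0 < r < p
  have key : ∀ r : ℕ, 0 < r → r < p → ∀ y ∈ B, y + r • (f - f') ∉ B := by
    intro r hr hrp y hy hy'
    have hcop : r.Coprime p :=
      (Nat.Coprime.symm ((Nat.Prime.coprime_iff_not_dvd hp).2 (Nat.not_dvd_of_pos_of_lt hr hrp)))
    have D := h.dilate r hr hcop
    obtain ⟨f₀, -, hu⟩ := D (y + r • f)
    have e1 : f = f₀ := hu f ⟨hf, by simpa using hy⟩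
    have e2 : f' = f₀ := hu f' ⟨hf', by
      have : y + r • f - r • f' = y + r • (f - f') := by rw [smul_sub]; abel
      rw [this]; exact hy'⟩
    exact hff (e1.trans e2.symm)
  have h1 := DTile.one_iff.mp h
  set x := b + f with hx
  -- the index function along the line x + k • (f - f')
  let c : ℕ → G := fun k => Classical.choose (h1 (x + k • (f - f')))
  have hc : ∀ k, c k ∈ F ∧ x + k • (f - f') - c k ∈ B :=
    fun k => (Classical.choose_spec (h1 (x + k • (f - f')))).1
  have hcu : ∀ k, ∀ l, l ∈ F ∧ x + k • (f - f') - l ∈ B → l = c k :=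
    fun k => (Classical.choose_spec (h1 (x + k • (f - f')))).2
  have hc0 : c 0 = f := by
    symm
    apply hcu 0 f
    refine ⟨hf, ?_⟩
    simpa [hx] using hb
  -- distinct k, k' < p + 1 with k' - k < p have distinct indices
  have hne : ∀ k k' : ℕ, k < k' → k' - k < p → c k ≠ c k' := by
    intro k k' hkk hlt heq
    have hB1 := (hc k).2
    have hB2 := (hc k').2
    rw [← heq] at hB2
    have : x + k' • (f - f') - c k = (x + k • (f - f') - c k) + (k' - k) • (f - f') := by
      have hk : k' = k + (k' - k) := by omega
      conv_lhs => rw [hk, add_smul]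
      abel
    rw [this] at hB2
    exact key (k' - k) (by omega) hlt _ hB1 hB2
  have hinj : Set.InjOn c (Finset.range p : Set ℕ) := by
    intro k hk k' hk' heq
    simp only [Finset.coe_range, Set.mem_Iio] at hk hk'
    by_contra hkk
    rcases Nat.lt_or_gt_of_ne hkk with hlt | hlt
    · exact hne k k' hlt (by omega) heq
    · exact hne k' k hlt (by omega) heq.symm
  have himg : (Finset.range p).image c = F := by
    apply Finset.eq_of_subset_of_card_le
    · intro l hl
      rw [Finset.mem_image] at hl
      obtain ⟨k, -, rfl⟩ := hl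
      exact (hc k).1
    · rw [Finset.card_image_of_injOn hinj, Finset.card_range]
  have hcp : c p ∈ (Finset.range p).image c := by
    rw [himg]; exact (hc p).1
  rw [Finset.mem_image] at hcp
  obtain ⟨k₀, hk₀, hk₀eq⟩ := hcp
  rw [Finset.mem_range] at hk₀
  have hk0 : k₀ = 0 := by
    by_contra hk
    exact hne k₀ p hk₀ (by omega) hk₀eq
  subst hk0
  have := (hc p).2
  rw [← hk₀eq, hc0] at this
  have e : x + p • (f - f') - f = b + p • (f - f') := by rw [hx]; abel
  rwa [e] at this

/-- the subgroup generated by the differences of elements of `F`. -/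
def diffGroup (F : Finset G) : AddSubgroup G :=
  AddSubgroup.closure {x | ∃ f ∈ F, ∃ f' ∈ F, x = f - f'}

theorem sub_mem_diffGroup {F : Finset G} {f f' : G} (hf : f ∈ F) (hf' : f' ∈ F) :
    f - f' ∈ diffGroup F :=
  AddSubgroup.subset_closure ⟨f, hf, f', hf', rfl⟩

/-- Periodicity of tilings by a set of prime cardinality. -/
theorem DTile.prime_invariant {B : Set G} {F : Finset G} (h : DTile B F 1) (hp : F.card.Prime)
    {γ : G} (hγ : γ ∈ diffGroup F) : ∀ b, b + F.card • γ ∈ B ↔ b ∈ B := by
  unfold diffGroup at hγ
  induction hγ using AddSubgroup.closure_induction with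
  | mem x hx =>
    obtain ⟨f, hf, f', hf', rfl⟩ := hx
    intro b
    constructor
    · intro hb
      have := h.prime_step hp hf' hf hb
      have e : b + F.card • (f - f') + F.card • (f' - f) = b := by
        rw [add_assoc, ← smul_add]; simp
      rwa [e] at this
    · intro hb
      exact h.prime_step hp hf hf' hb
  | zero => intro b; simp
  | add x y _ _ hx hy =>
    intro b
    rw [smul_add, ← add_assoc, hy, hx]
  | neg x _ hx =>
    intro b
    rw [← hx (b + F.card • -x)]
    have e : b + F.card • -x + F.card • x = b := by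
      rw [add_assoc, ← smul_add]; simp
    rw [e]

/-- `Rigid F n`: `n > 0` and every tiling complement `B` of `F` is invariant under `n • γ`
for every `γ` in the group generated by the differences of elements of `F`. -/
def Rigid (F : Finset G) (n : ℕ) : Prop :=
  0 < n ∧ ∀ B : Set G, DTile B F 1 → ∀ γ ∈ diffGroup F, ∀ b, b + n • γ ∈ B ↔ b ∈ B

/-- Sets of prime cardinality are rigid (Szegedy). -/
theorem rigid_of_prime {F : Finset G} (hp : F.card.Prime) : Rigid F F.card :=
  ⟨hp.pos, fun _ h _ hγ => h.prime_invariant hp hγ⟩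

end Vale.Agent.Lib.P043
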