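import Vale.Agent.Lib.P043.Main

/-!
Structure of all tilings by a direct sum of two sets of prime cardinality:
every tiling is invariant under `|F₁| |F₂| • γ` for `γ` in both difference groups.
-/

namespace Vale.Agent.Lib.P043

open Finset Pointwise

variable {G : Type*} [AddCommGroup G]

theorem T2.inf_le_stab {A : Set G} {F₁ F₂ : Finset G} (hT : T2 A F₁ F₂) {n₁ n₂ : ℕ}
    (h₁ : Rigid F₁ n₁) (h₂ : Rigid F₂ n₂) : pGroup F₁ n₁ ⊓ pGroup F₂ n₂ ≤ stab A := by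
  intro h hh x
  obtain ⟨hh1, hh2⟩ := AddSubgroup.mem_inf.1 hh
  obtain ⟨u₁, hu₁⟩ := hT.nonempty_left
  obtain ⟨u₂, hu₂⟩ := hT.nonempty_right
  have hB : pGroup F₂ n₂ ≤ stab (sumSet A F₁) := hT.tile.pGroup_le_stab h₂
  have hC : pGroup F₁ n₁ ≤ stab (sumSet A F₂) := hT.symm.tile.pGroup_le_stab h₁
  rw [hT.mem_iff hu₁ hu₂, hT.mem_iff hu₁ hu₂]
  have e1 : x + h + u₁ = (x + u₁) + h := by abel
  have e2 : x + h + u₂ = (x + u₂) + h := by abel
  rw [e1, e2, hB hh2 (x + u₁), hC hh1 (x + u₂)]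

variable [DecidableEq G]

/-- Every tiling of an abelian group by a direct sum `F₁ + F₂` of two sets of prime cardinality
is invariant under `(|F₁| |F₂|) • h` for every `h` lying in both difference groups. -/
theorem tiling_two_prime_invariant (F₁ F₂ : Finset G)
    (hp₁ : F₁.card.Prime) (hp₂ : F₂.card.Prime)
    (hdir : (F₁ + F₂).card = F₁.card * F₂.card)
    (A : Set G)
    (hA : ∀ g : G, ∃! q : G × G, q.1 ∈ A ∧ q.2 ∈ F₁ + F₂ ∧ q.1 + q.2 = g)
    (h : G)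
    (h1 : h ∈ AddSubgroup.closure {x : G | ∃ f ∈ F₁, ∃ f' ∈ F₁, x = f - f'})
    (h2 : h ∈ AddSubgroup.closure {x : G | ∃ f ∈ F₂, ∃ f' ∈ F₂, x = f - f'}) :
    ((F₁.card * F₂.card) • h) +ᵥ A = A := by
  have hT := T2_of_tiling hdir hA
  have hmem : (F₁.card * F₂.card) • h ∈ pGroup F₁ F₁.card ⊓ pGroup F₂ F₂.card := by
    refine AddSubgroup.mem_inf.2 ⟨?_, ?_⟩
    · rw [mul_comm, mul_smul]
      exact nsmul_mem (smul_mem_pGroup F₁.card h1) _
    · rw [mul_smul]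
      exact nsmul_mem (smul_mem_pGroup F₂.card h2) _
  have hstab := hT.inf_le_stab (rigid_of_prime hp₁) (rigid_of_prime hp₂) hmem
  ext x
  rw [Set.mem_vadd_set_iff_neg_vadd_mem, vadd_eq_add, add_comm]
  exact (neg_mem hstab) x

end Vale.Agent.Lib.P043
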