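import Vale.Agent.Lib.P043.Prime
import Vale.Agent.Lib.P043.Group

/-!
Tilings of an abelian group by a direct sum `F₁ + F₂` of two rigid finite sets
(for instance sets of prime cardinality): the re-basing lemma.
-/

namespace Vale.Agent.Lib.P043

open Finset

variable {G : Type*} [AddCommGroup G]

/-- `T2 A F₁ F₂`: for every `g` there is exactly one pair `(f₁, f₂) ∈ F₁ × F₂`
with `g - f₁ - f₂ ∈ A`. -/
def T2 (A : Set G) (F₁ F₂ : Finset G) : Prop :=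
  ∀ g : G, ∃! q : G × G, q.1 ∈ F₁ ∧ q.2 ∈ F₂ ∧ g - q.1 - q.2 ∈ A

/-- the stabilizer of a set under translations. -/
def stab (A : Set G) : AddSubgroup G where
  carrier := {h | ∀ x, x + h ∈ A ↔ x ∈ A}
  zero_mem' := by intro x; simp
  add_mem' := by
    intro a b ha hb x
    rw [← add_assoc, hb, ha]
  neg_mem' := by
    intro a ha x
    rw [← ha (x + -a)]
    simp

theorem mem_stab {A : Set G} {h : G} : h ∈ stab A ↔ ∀ x, x + h ∈ A ↔ x ∈ A := Iff.rfl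

/-- the set `A + F`. -/
def sumSet (A : Set G) (F : Finset G) : Set G := {x | ∃ f ∈ F, x - f ∈ A}

theorem stab_le_stab_sumSet (A : Set G) (F : Finset G) : stab A ≤ stab (sumSet A F) := by
  intro h hh x
  constructor
  · rintro ⟨f, hf, hx⟩
    refine ⟨f, hf, ?_⟩
    have : x + h - f = (x - f) + h := by abel
    rw [this] at hx
    exact (hh _).1 hx
  · rintro ⟨f, hf, hx⟩
    refine ⟨f, hf, ?_⟩
    have : x + h - f = (x - f) + h := by abel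
    rw [this]
    exact (hh _).2 hx

/-- the group `n • diffGroup F`. -/
def pGroup (F : Finset G) (n : ℕ) : AddSubgroup G :=
  (diffGroup F).map (nsmulAddMonoidHom n)

theorem smul_mem_pGroup {F : Finset G} (n : ℕ) {γ : G} (hγ : γ ∈ diffGroup F) :
    n • γ ∈ pGroup F n :=
  AddSubgroup.mem_map.2 ⟨γ, hγ, rfl⟩

theorem pGroup_le (F : Finset G) (n : ℕ) : pGroup F n ≤ diffGroup F := by
  intro x hx
  obtain ⟨γ, hγ, rfl⟩ := AddSubgroup.mem_map.1 hx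
  exact nsmul_mem hγ _

theorem pGroup_fg (F : Finset G) (n : ℕ) :
    ∃ S : Finset G, AddSubgroup.closure (S : Set G) = pGroup F n := by
  classical
  refine ⟨(F ×ˢ F).image (fun q => n • (q.1 - q.2)), ?_⟩
  unfold pGroup diffGroup
  rw [AddMonoidHom.map_closure]
  congr 1
  ext x
  simp only [Finset.coe_image, Set.mem_image, Finset.mem_coe, Finset.mem_product, Prod.exists,
    Set.mem_ofPred_eq, nsmulAddMonoidHom_apply]
  constructor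
  · rintro ⟨a, b, ⟨ha, hb⟩, rfl⟩
    exact ⟨a - b, ⟨a, ha, b, hb, rfl⟩, rfl⟩
  · rintro ⟨y, ⟨a, ha, b, hb, rfl⟩, rfl⟩
    exact ⟨a, b, ⟨ha, hb⟩, rfl⟩

theorem DTile.pGroup_le_stab {B : Set G} {F : Finset G} {n : ℕ} (h : DTile B F 1)
    (hr : Rigid F n) : pGroup F n ≤ stab B := by
  intro x hx
  obtain ⟨γ, hγ, rfl⟩ := AddSubgroup.mem_map.1 hx
  exact hr.2 B h γ hγ

theorem T2.symm {A : Set G} {F₁ F₂ : Finset G} (h : T2 A F₁ F₂) : T2 A F₂ F₁ := by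
  intro g
  obtain ⟨q, ⟨h1, h2, h3⟩, hu⟩ := h g
  refine ⟨(q.2, q.1), ⟨h2, h1, ?_⟩, ?_⟩
  · have : g - q.2 - q.1 = g - q.1 - q.2 := by abel
    simpa [this] using h3
  · rintro ⟨a, b⟩ ⟨ha, hb, hab⟩
    have : g - b - a = g - a - b := by abel
    have := hu (b, a) ⟨hb, ha, by simpa [this] using hab⟩
    rw [← this]

theorem T2.nonempty_left {A : Set G} {F₁ F₂ : Finset G} (h : T2 A F₁ F₂) : F₁.Nonempty := by
  obtain ⟨q, ⟨h1, -, -⟩, -⟩ := h 0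
  exact ⟨q.1, h1⟩

theorem T2.nonempty_right {A : Set G} {F₁ F₂ : Finset G} (h : T2 A F₁ F₂) : F₂.Nonempty :=
  h.symm.nonempty_left

theorem T2.tile {A : Set G} {F₁ F₂ : Finset G} (h : T2 A F₁ F₂) :
    DTile (sumSet A F₁) F₂ 1 := by
  rw [DTile.one_iff]
  intro g
  obtain ⟨q, ⟨h1, h2, h3⟩, hu⟩ := h g
  refine ⟨q.2, ⟨h2, q.1, h1, ?_⟩, ?_⟩
  · have : g - q.2 - q.1 = g - q.1 - q.2 := by abel
    rw [this]; exact h3
  · rintro f ⟨hf, f₁, hf₁, hmem⟩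
    have : g - f - f₁ = g - f₁ - f := by abel
    rw [this] at hmem
    have := hu (f₁, f) ⟨hf₁, hf, hmem⟩
    rw [← this]

theorem T2.uniq {A : Set G} {F₁ F₂ : Finset G} (h : T2 A F₁ F₂) {b f f' : G}
    (hf : f ∈ F₁) (hf' : f' ∈ F₁) (hb : b - f ∈ A) (hb' : b - f' ∈ A) : f = f' := by
  obtain ⟨u, hu⟩ := h.nonempty_right
  obtain ⟨q, -, hq⟩ := h (b + u)
  have e1 := hq (f, u) ⟨hf, hu, by
    have : b + u - f - u = b - f := by abel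
    simpa [this] using hb⟩
  have e2 := hq (f', u) ⟨hf', hu, by
    have : b + u - f' - u = b - f' := by abel
    simpa [this] using hb'⟩
  have := e1.trans e2.symm
  exact (Prod.ext_iff.1 this).1

theorem T2.mem_iff {A : Set G} {F₁ F₂ : Finset G} (h : T2 A F₁ F₂) {u₁ u₂ : G}
    (hu₁ : u₁ ∈ F₁) (hu₂ : u₂ ∈ F₂) (w : G) :
    w ∈ A ↔ w + u₁ ∈ sumSet A F₁ ∧ w + u₂ ∈ sumSet A F₂ := by
  constructor
  · intro hw
    exact ⟨⟨u₁, hu₁, by simpa using hw⟩, ⟨u₂, hu₂, by simpa using hw⟩⟩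
  · rintro ⟨⟨f₁, hf₁, h1⟩, ⟨f₂, hf₂, h2⟩⟩
    obtain ⟨q, -, hq⟩ := h (w + u₁ + u₂)
    have e1 := hq (f₁, u₂) ⟨hf₁, hu₂, by
      have : w + u₁ + u₂ - f₁ - u₂ = w + u₁ - f₁ := by abel
      simpa [this] using h1⟩
    have e2 := hq (u₁, f₂) ⟨hu₁, hf₂, by
      have : w + u₁ + u₂ - u₁ - f₂ = w + u₂ - f₂ := by abel
      simpa [this] using h2⟩
    have e := e1.trans e2.symm
    have ef : f₁ = u₁ := (Prod.ext_iff.1 e).1
    rw [ef] at h1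
    simpa using h1

/-- Re-basing lemma. -/
theorem T2.rebase {A : Set G} {F₁ F₂ : Finset G} (hT : T2 A F₁ F₂) {n₁ n₂ : ℕ}
    (hp₁ : Rigid F₁ n₁) (hp₂ : Rigid F₂ n₂)
    (M : AddSubgroup G) (hM : M ≤ pGroup F₂ n₂) (hdisj : diffGroup F₁ ⊓ M = ⊥) :
    ∃ A' : Set G, T2 A' F₁ F₂ ∧ M ≤ stab A' ∧ pGroup F₁ n₁ ⊓ pGroup F₂ n₂ ≤ stab A' ∧
      ∀ Q : AddSubgroup G, Q ≤ diffGroup F₁ → Q ≤ stab A → Q ≤ stab A' := by
  classical
  obtain ⟨l, hlL, hlΓ, hlM⟩ := exists_proj (diffGroup F₁) M hdisj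
  have hBtile : DTile (sumSet A F₁) F₂ 1 := hT.tile
  have hCtile : DTile (sumSet A F₂) F₁ 1 := hT.symm.tile
  have hBinv : pGroup F₂ n₂ ≤ stab (sumSet A F₁) := hBtile.pGroup_le_stab hp₂
  have hCinv : pGroup F₁ n₁ ≤ stab (sumSet A F₂) := hCtile.pGroup_le_stab hp₁
  obtain ⟨u₁, hu₁⟩ := hT.nonempty_left
  obtain ⟨u₂, hu₂⟩ := hT.nonempty_right
  have hρΓ : ∀ x, ∀ γ ∈ diffGroup F₁, (x + γ) - l (x + γ) = (x - l x) + γ := by
    intro x γ hγ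
    rw [hlΓ x γ hγ]; abel
  have hρM : ∀ x, ∀ m ∈ M, (x + m) - l (x + m) = x - l x := by
    intro x m hm
    rw [hlM x m hm]; abel
  have hρB : ∀ x y, y + ((x - l x) - x) ∈ sumSet A F₁ ↔ y ∈ sumSet A F₁ := by
    intro x y
    have : (x - l x) - x = -(l x) := by abel
    rw [this]
    exact hBinv (neg_mem (hM (hlL x))) y
  let A' : Set G := {x | x + u₁ ∈ sumSet A F₁ ∧ (x + u₂) - l (x + u₂) ∈ sumSet A F₂}
  have key : ∀ y, ∀ f₁ ∈ F₁, (y - f₁ ∈ A' ↔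
      y + (((y - u₁ + u₂) - l (y - u₁ + u₂)) - (y - u₁ + u₂)) - f₁ ∈ A) := by
    intro y f₁ hf₁
    set r := ((y - u₁ + u₂) - l (y - u₁ + u₂)) - (y - u₁ + u₂) with hr
    have e1 : (y - f₁ + u₂) - l (y - f₁ + u₂) = (y + r - f₁) + u₂ := by
      have : y - f₁ + u₂ = (y - u₁ + u₂) + (u₁ - f₁) := by abel
      rw [this, hρΓ _ _ (sub_mem_diffGroup hu₁ hf₁), hr]; abel
    have e2 : (y - f₁ + u₁ ∈ sumSet A F₁ ↔ (y + r - f₁) + u₁ ∈ sumSet A F₁) := by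
      have : (y + r - f₁) + u₁ = (y - f₁ + u₁) + r := by abel
      rw [this, hr, hρB]
    show (y - f₁ + u₁ ∈ sumSet A F₁ ∧ (y - f₁ + u₂) - l (y - f₁ + u₂) ∈ sumSet A F₂) ↔ _
    rw [e1, e2, hT.mem_iff hu₁ hu₂]
  have hA'B : ∀ x ∈ A', ∀ f₁ ∈ F₁, x + f₁ ∈ sumSet A F₁ := by
    intro x hx f₁ hf₁
    have hx' : (x + f₁) - f₁ ∈ A' := by simpa using hx
    have := (key (x + f₁) f₁ hf₁).1 hx'
    have hmem : x + f₁ + (((x + f₁ - u₁ + u₂) - l (x + f₁ - u₁ + u₂)) - (x + f₁ - u₁ + u₂))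
        ∈ sumSet A F₁ := ⟨f₁, hf₁, this⟩
    exact (hρB _ _).1 hmem
  refine ⟨A', ?_, ?_, ?_, ?_⟩
  · intro g
    obtain ⟨f₂, ⟨hf₂, hgB⟩, hf₂u⟩ := (DTile.one_iff.1 hBtile) g
    set b := g - f₂ with hb
    have hbr : b + (((b - u₁ + u₂) - l (b - u₁ + u₂)) - (b - u₁ + u₂)) ∈ sumSet A F₁ :=
      (hρB _ _).2 hgB
    obtain ⟨f₁, hf₁, hf₁A⟩ := hbr
    refine ⟨(f₁, f₂), ⟨hf₁, hf₂, ?_⟩, ?_⟩
    · have : g - f₁ - f₂ = b - f₁ := by rw [hb]; abel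
      show g - f₁ - f₂ ∈ A'
      rw [this]
      exact (key b f₁ hf₁).2 hf₁A
    · rintro ⟨f₁', f₂'⟩ ⟨hf₁', hf₂', hmem⟩
      simp only at hf₁' hf₂' hmem
      have h1 : g - f₂' ∈ sumSet A F₁ := by
        have := hA'B _ hmem f₁' hf₁'
        have e : g - f₁' - f₂' + f₁' = g - f₂' := by abel
        rwa [e] at this
      have ef₂ : f₂' = f₂ := hf₂u f₂' ⟨hf₂', h1⟩
      subst ef₂
      have h2 : b - f₁' ∈ A' := by
        have e : g - f₁' - f₂' = b - f₁' := by rw [hb]; abel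
        rwa [e] at hmem
      have h3 := (key b f₁' hf₁').1 h2
      have ef₁ : f₁' = f₁ := hT.uniq hf₁' hf₁ h3 hf₁A
      rw [ef₁]
  · intro h hh x
    show (x + h + u₁ ∈ sumSet A F₁ ∧ (x + h + u₂) - l (x + h + u₂) ∈ sumSet A F₂) ↔
      (x + u₁ ∈ sumSet A F₁ ∧ (x + u₂) - l (x + u₂) ∈ sumSet A F₂)
    have e1 : x + h + u₁ = (x + u₁) + h := by abel
    have e2 : x + h + u₂ = (x + u₂) + h := by abel
    rw [e1, e2, hρM _ _ hh, hBinv (hM hh) (x + u₁)]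
  · intro h hh x
    obtain ⟨hh1, hh2⟩ := AddSubgroup.mem_inf.1 hh
    show (x + h + u₁ ∈ sumSet A F₁ ∧ (x + h + u₂) - l (x + h + u₂) ∈ sumSet A F₂) ↔
      (x + u₁ ∈ sumSet A F₁ ∧ (x + u₂) - l (x + u₂) ∈ sumSet A F₂)
    have e1 : x + h + u₁ = (x + u₁) + h := by abel
    have e2 : x + h + u₂ = (x + u₂) + h := by abel
    rw [e1, e2, hρΓ _ _ (pGroup_le F₁ n₁ hh1), hBinv hh2 (x + u₁), hCinv hh1]
  · intro Q hQ hQA h hh x
    show (x + h + u₁ ∈ sumSet A F₁ ∧ (x + h + u₂) - l (x + h + u₂) ∈ sumSet A F₂) ↔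
      (x + u₁ ∈ sumSet A F₁ ∧ (x + u₂) - l (x + u₂) ∈ sumSet A F₂)
    have e1 : x + h + u₁ = (x + u₁) + h := by abel
    have e2 : x + h + u₂ = (x + u₂) + h := by abel
    rw [e1, e2, hρΓ _ _ (hQ hh), stab_le_stab_sumSet A F₁ (hQA hh) (x + u₁),
      stab_le_stab_sumSet A F₂ (hQA hh)]

end Vale.Agent.Lib.P043
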